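import Vale.Agent.P215Z.Top.Discr.Mar

/-!
# P215: the coarse discretisation of a lifted disc
-/

noncomputable section

namespace Vale.Agent.P215Z.Discr

open Set Filter Topology Metric P215.H788

/-- a coordinate of a grid point -/
def co (M : ℕ) (n : ℤ) : ℝ := max (-1) (min 1 (2 * n / M - 1))

theorem abs_co (M : ℕ) (n : ℤ) : |co M n| ≤ 1 :=
  abs_le.2 ⟨le_max_left _ _, max_le (by norm_num) (min_le_left _ _)⟩

theorem co_eq {M : ℕ} (hM : 0 < M) {n : ℤ} (h0 : 0 ≤ n) (h1 : n ≤ M) : co M n = 2 * n / M - 1 := by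
  have h2 : (0 : ℝ) < M := Nat.cast_pos.2 hM
  have h3 : (0 : ℝ) ≤ n := by exact_mod_cast h0
  have h4 : (n : ℝ) ≤ M := by exact_mod_cast h1
  have h5 : 2 * (n : ℝ) / M ≤ 2 := by
    rw [div_le_iff₀ h2]
    linarith
  have h6 : 0 ≤ 2 * (n : ℝ) / M := by positivity
  rw [co, min_eq_right (by linarith), max_eq_right (by linarith)]

/-- the grid points -/
def pt (M : ℕ) (w : Gp) : Disc := ⟨(co M w.1, co M w.2), by
  rw [mem_closedBall_zero_iff, Prod.norm_mk]
  exact max_le (abs_co M _) (abs_co M _)⟩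

theorem dist_co {M : ℕ} (hM : 0 < M) {n n' : ℤ} (h0 : 0 ≤ n) (h1 : n < M)
    (h : n' = n ∨ n' = n + 1) : dist (co M n') (co M n) ≤ 2 / M := by
  have h2 : (0 : ℝ) < M := Nat.cast_pos.2 hM
  rcases h with rfl | rfl
  · rw [dist_self]
    positivity
  · rw [co_eq hM h0 h1.le, co_eq hM (by omega) (by omega), Real.dist_eq]
    push_cast
    rw [show 2 * ((n : ℝ) + 1) / M - 1 - (2 * n / M - 1) = 2 / M by ring, abs_of_pos (by positivity)]

theorem dist_pt {M : ℕ} (hM : 0 < M) {s w : Gp} (hs : InSq M s) (hw : Corner s w) :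
    dist (pt M w) (pt M s) ≤ 2 / M :=
  max_le (dist_co hM hs.1 hs.2.1 hw.1) (dist_co hM hs.2.2.1 hs.2.2.2 hw.2)

theorem pt_bd {M : ℕ} (hM : 0 < M) {w : Gp} (hw : OnBd M w) : ∃ z : Circ, z.toDisc = pt M w := by
  have h2 : (M : ℝ) ≠ 0 := Nat.cast_ne_zero.2 hM.ne'
  have h0 : |co M 0| = 1 := by
    rw [co_eq hM le_rfl (Int.natCast_nonneg M)]
    simp
  have h1 : |co M M| = 1 := by
    rw [co_eq hM (Int.natCast_nonneg M) le_rfl, Int.cast_natCast, mul_div_cancel_right₀ _ h2]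
    norm_num
  refine ⟨⟨(pt M w).1, ?_⟩, rfl⟩
  rw [mem_sphere_zero_iff_norm]
  change max |co M w.1| |co M w.2| = 1
  rcases hw.2 with h | h | h | h
  · rw [h, h0, max_eq_left (abs_co M _)]
  · rw [h, h1, max_eq_left (abs_co M _)]
  · rw [h, h0, max_eq_right (abs_co M _)]
  · rw [h, h1, max_eq_right (abs_co M _)]

theorem fl_co {M N : ℕ} (hM : 0 < M) {n : ℤ} (h0 : 0 ≤ n) (h1 : n ≤ M) (a : ℤ) {c : ℝ}
    (hc : c = a + 3 / 2) : a * N ≤ ⌊(N : ℝ) * (c + 3 / 2 * co M n)⌋ ∧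
      ⌊(N : ℝ) * (c + 3 / 2 * co M n)⌋ ≤ (a + 3) * N ∧
      (n = 0 → ⌊(N : ℝ) * (c + 3 / 2 * co M n)⌋ = a * N) ∧
      (n = M → ⌊(N : ℝ) * (c + 3 / 2 * co M n)⌋ = (a + 3) * N) := by
  have h2 : (M : ℝ) ≠ 0 := Nat.cast_ne_zero.2 hM.ne'
  have h3 : (0 : ℝ) ≤ N := Nat.cast_nonneg N
  obtain ⟨h4, h5⟩ := abs_le.1 (abs_co M n)
  subst hc
  refine ⟨Int.le_floor.2 ?_, Int.floor_le_iff.2 ?_, fun h => ?_, fun h => ?_⟩
  · push_cast
    nlinarith
  · push_cast
    nlinarith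
  · rw [co_eq hM h0 h1, h, ← Int.floor_intCast (R := ℝ) (a * N)]
    congr 1
    push_cast
    ring
  · rw [co_eq hM h0 h1, h, ← Int.floor_intCast (R := ℝ) ((a + 3) * N), Int.cast_natCast,
      mul_div_cancel_right₀ _ h2]
    congr 1
    push_cast
    ring

theorem exists_pre (D : Lifted1) : Nonempty PreData := by
  obtain ⟨c, r, δ, hr, hδ, hV, hU, hT, hF⟩ := exists_margin D.toLifted
  obtain ⟨N, hN, hNδ⟩ : ∃ N : ℕ, 0 < N ∧ 2 / (N : ℝ) ≤ δ := by
    obtain ⟨N, h⟩ := exists_nat_gt (2 / δ)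
    have h1 : (0 : ℝ) < N := lt_trans (by positivity) h
    refine ⟨N, Nat.cast_pos.1 h1, ?_⟩
    rw [div_lt_iff₀ hδ] at h
    rw [div_le_iff₀ h1]
    linarith
  have hN' : (0 : ℝ) < N := Nat.cast_pos.2 hN
  obtain ⟨η, hη, hc⟩ := Metric.uniformContinuous_iff.1
    (CompactSpace.uniformContinuous_of_continuous (D.cont 1)) (1 / N) (by positivity)
  obtain ⟨M, hM, hMr, hMη⟩ : ∃ M : ℕ, 0 < M ∧ 2 / (M : ℝ) ≤ r ∧ 4 / (M : ℝ) < η := by
    obtain ⟨M, h⟩ := exists_nat_gt (max (2 / r) (4 / η))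
    have h2 := (le_max_left _ _).trans_lt h
    have h3 := (le_max_right _ _).trans_lt h
    have h1 : (0 : ℝ) < M := lt_trans (by positivity) h2
    refine ⟨M, Nat.cast_pos.1 h1, ?_, ?_⟩
    · rw [div_lt_iff₀ hr] at h2
      rw [div_le_iff₀ h1]
      linarith
    · rw [div_lt_iff₀ hη] at h3
      rw [div_lt_iff₀ h1]
      linarith
  let F : Gp → Pt := fun w => fl N (D.f 1 (pt M w))
  let g : Gp → F3 := fun s => c (pt M s)
  have hd : ∀ {s w}, InSq M s → Corner s w → dist (pt M w) (pt M s) ≤ r := fun hs hw =>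
    (dist_pt hM hs hw).trans hMr
  have hs0 : ∀ s : Gp, Corner s s := fun s => ⟨Or.inl rfl, Or.inl rfl⟩
  have hact : ∀ h w, act N h (F w) = fl N (D.f h (pt M w)) := fun h w => by
    rw [act_fl D.toLifted N (pt M w) h 1, one_mul]
  have near : ∀ s, InSq M s → ∀ w w', Corner s w → Corner s w' → ∀ j, F w j ≤ F w' j + 1 := by
    intro s hs w w' hw hw' j
    have h1 : dist (pt M w) (pt M w') < η := by
      have h2 := dist_triangle_right (pt M w) (pt M w') (pt M s)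
      have h3 : 4 / (M : ℝ) = 2 / M + 2 / M := by ring
      linarith [dist_pt hM hs hw, dist_pt hM hs hw']
    have h2 := (dist_le_pi_dist _ _ j).trans_lt (hc h1)
    rw [Real.dist_eq, lt_div_iff₀ hN'] at h2
    have h3 := (le_abs_self (D.f 1 (pt M w) j - D.f 1 (pt M w') j))
    change ⌊_⌋ ≤ ⌊_⌋ + 1
    rw [← Int.floor_add_one]
    exact Int.floor_mono (by nlinarith)
  have hull : ∀ {s w q}, InSq M s → Corner s w → q ∈ Hull F s → ∀ h j,
      act N h q j ≤ act N h (F w) j + 1 ∧ act N h (F w) j ≤ act N h q j + 1 := by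
    intro s w q hs hw hq h j
    obtain ⟨π, t, e⟩ := act_form N h
    obtain ⟨⟨w₁, a1, a2⟩, w₂, b1, b2⟩ := hq (π j)
    rw [e, e]
    constructor <;> linarith [near s hs w₂ w b1 hw (π j), near s hs w w₁ hw a1 (π j)]
  have hull2 : ∀ {s q q'}, InSq M s → q ∈ Hull F s → q' ∈ Hull F s → ∀ h j,
      act N h q j ≤ act N h q' j + 1 := by
    intro s q q' hs hq hq' h j
    obtain ⟨π, t, e⟩ := act_form N h
    obtain ⟨-, w₂, b1, b2⟩ := hq (π j)
    obtain ⟨⟨w₁, a1, a2⟩, -⟩ := hq' (π j)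
    rw [e, e]
    linarith [near s hs w₂ w₁ b1 a1 (π j)]
  have close : ∀ {s w q}, InSq M s → Corner s w → q ∈ Hull F s → ∀ h,
      dist (pr N (act N h q)) (D.f h (pt M w)) ≤ δ := fun hs hw hq h =>
    (dist_pr hN fun j => by rw [← hact]; exact hull hs hw hq h j).trans hNδ
  have inU : ∀ {s q}, InSq M s → q ∈ Hull F s → act N (g s) q ∈ Uc N := by
    intro s q hs hq
    refine mem_Uc_of_pr hN (hU _ _ (hd hs (hs0 s)) _ (close hs (hs0 s) hq _)) ?_
    obtain ⟨π, t, e⟩ := act_form N (g s)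
    obtain ⟨⟨w, a1, a2⟩, -⟩ := hq (π 3)
    have h1 : 0 ≤ act N (g s) (F w) 3 := by
      rw [hact]
      exact Int.floor_nonneg.2 (mul_nonneg hN'.le (D.mem _ _ (hV _ _ (hd hs a1))).2.1)
    rw [e] at h1 ⊢
    linarith
  have step : ∀ {h h' : F3} {i q}, h' = h * FreeGroup.of i → act N h q ∈ Qc N (i, true) →
      lab N h (act N h q) = lab N h' (act N h' q) := by
    rintro h _ i q rfl hq
    rw [lab_of_mem h hq, act_mul_of, lab_of_not _ (false_notMem (thC_mem hq))]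
  have bd : ∀ v, OnBd M v → pt M v ∈ D.V 1 ∧ D.f 1 (pt M v) =
      ![15, 9 / 2 + 3 / 2 * co M v.2, 5 / 2 + 3 / 2 * co M v.1, 0] := fun v hv => by
    obtain ⟨z, hz⟩ := pt_bd hM hv
    have h1 := D.bd z
    have h2 : z.1 = (co M v.1, co M v.2) := congrArg Subtype.val hz
    rwa [hz, h2] at h1
  have bd0 : ∀ v, OnBd M v → F v 0 = 15 * N := fun v hv => by
    change ⌊(N : ℝ) * D.f 1 (pt M v) 0⌋ = _
    rw [(bd v hv).2, ← Int.floor_intCast (R := ℝ) (15 * N)]
    congr 1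
    push_cast
    exact mul_comm _ _
  refine ⟨⟨N, hN, M, hM, F, fun s q => lab N (g s) (act N (g s) q), near, fun s hs q hq => ?_,
    fun s hs => ?_, fun s s' w hs hs' hw hw' q hq => ?_, fun s s' hs hs' q hq q' hq' e => ?_,
    fun s w hs hw hb q hq => ?_, fun v hv => ?_⟩⟩
  · by_cases h : ∃ i, act N (g s) q ∈ Qc N (i, true)
    · obtain ⟨i, h⟩ := h
      rw [lab_of_mem _ h, act_mul_of]
      exact ⟨Qc_sub (thC_mem h), false_notMem (thC_mem h)⟩
    · rw [lab_of_not _ (not_exists.1 h)]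
      exact ⟨inU hs hq, not_exists.1 h⟩
  · obtain ⟨i, hi⟩ : ∃ i, ∀ q ∈ Hull F s, ∀ j, act N (g s) q ∈ Qc N (j, true) → j = i := by
      by_cases h : ∃ i, ∃ q ∈ Hull F s, act N (g s) q ∈ Qc N (i, true)
      · obtain ⟨i, q, hq, h⟩ := h
        exact ⟨i, fun q' hq' j h' => (Prod.ext_iff.1
          (Qc_near h' h fun k => ⟨hull2 hs hq' hq _ k, hull2 hs hq hq' _ k⟩)).1⟩
      · exact ⟨0, fun q hq j h' => absurd ⟨j, q, hq, h'⟩ h⟩
    refine ⟨g s, i, fun q hq => ⟨inU hs hq, ?_⟩⟩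
    by_cases h : act N (g s) q ∈ Qc N (i, true)
    · exact Or.inr ⟨lab_of_mem _ h, h⟩
    · exact Or.inl ⟨lab_of_not _ fun j h' => h (hi q hq j h' ▸ h'), h⟩
  · rcases hT _ _ _ (hd hs hw) (hd hs' hw') _ _ (close hs hw hq _) (close hs hw hq _) with
      h | ⟨i, h1, h2⟩ | ⟨i, h1, h2⟩
    · exact congrArg (fun h => lab N h (act N h q)) h
    · exact step h1 (mem_Qc_of_pr hN h2)
    · exact (step h1 (mem_Qc_of_pr hN h2)).symm
  · obtain ⟨f1, f2⟩ := hF _ _ _ _ (hd hs (hs0 s)) (hd hs' (hs0 s')) _ _ (close hs (hs0 s) hq _)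
      (close hs' (hs0 s') hq' _)
    obtain ⟨-, f3⟩ := hF _ _ _ _ (hd hs' (hs0 s')) (hd hs (hs0 s)) _ _ (close hs' (hs0 s') hq' _)
      (close hs (hs0 s) hq _)
    by_cases h : ∃ i, act N (g s) q ∈ Qc N (i, true)
    · obtain ⟨i, h⟩ := h
      rw [lab_of_mem _ h] at e ⊢
      rw [act_mul_of] at e
      by_cases h' : ∃ i, act N (g s') q' ∈ Qc N (i, true)
      · obtain ⟨j, h'⟩ := h'
        rw [lab_of_mem _ h'] at e ⊢
        rw [act_mul_of] at e
        obtain rfl : i = j := (Prod.ext_iff.1 (Qc_disj (thC_mem h) (e ▸ thC_mem h'))).1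
        have e' : act N (g s) q = act N (g s') q' := (thE N i).injective e
        exact congrArg (· * FreeGroup.of i) (f1.resolve_right fun h1 => h1 (congrArg (pr N) e'))
      · rw [lab_of_not _ (not_exists.1 h')] at e ⊢
        rcases f2 i with h1 | h1 | h1
        · exact h1
        · exact absurd (pr_mem_Qb hN h) h1
        · exact absurd ((pr_thC hN i _).symm.trans (congrArg (pr N) e)) h1
    · rw [lab_of_not _ (not_exists.1 h)] at e ⊢
      by_cases h' : ∃ i, act N (g s') q' ∈ Qc N (i, true)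
      · obtain ⟨j, h'⟩ := h'
        rw [lab_of_mem _ h'] at e ⊢
        rw [act_mul_of] at e
        rcases f3 j with h1 | h1 | h1
        · exact h1.symm
        · exact absurd (pr_mem_Qb hN h') h1
        · exact absurd ((pr_thC hN j _).symm.trans (congrArg (pr N) e.symm)) h1
      · rw [lab_of_not _ (not_exists.1 h')] at e ⊢
        exact f1.resolve_right fun h1 => h1 (congrArg (pr N) e)
  · have h0 : D.f 1 (pt M w) 0 = 15 := by rw [(bd w hb).2]; rfl
    have h1 : ∀ l, D.f 1 (pt M w) ∉ Qo l := fun l h => by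
      have h2 : (org l 0 : ℝ) ≤ 9 := by exact_mod_cast (org_box l).2.2
      linarith [(h 0).2]
    have h2 : g s = 1 := by
      rcases D.two _ _ _ (hV _ _ (hd hs hw)) (bd w hb).1 with h | ⟨i, h, h'⟩ | ⟨i, -, h'⟩
      · exact h
      · refine absurd (thR_mem_Qo h') ?_
        rw [← D.equiv, ← h]
        exact h1 _
      · exact absurd h' (h1 _)
    change lab N (g s) (act N (g s) q) = 1
    rw [h2]
    refine lab_of_not _ fun i h => ?_
    have h3 := (hull hs hw hq 1 0).2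
    have h4 := (mem_Qc.1 h 0).2
    have h5 := mul_le_mul_of_nonneg_left (org_box (i, true)).2.2 (Int.natCast_nonneg N)
    rw [act_one (q := F w), bd0 w hb] at h3
    omega
  · obtain ⟨a1, a2, a3, a4⟩ := fl_co (N := N) hM hv.1.2.2.1 hv.1.2.2.2 3 (c := 9 / 2) (by norm_num)
    obtain ⟨b1, b2, b3, b4⟩ := fl_co (N := N) hM hv.1.1 hv.1.2.1 1 (c := 5 / 2) (by norm_num)
    have e1 : F v 1 = ⌊(N : ℝ) * (9 / 2 + 3 / 2 * co M v.2)⌋ := by
      change ⌊(N : ℝ) * D.f 1 (pt M v) 1⌋ = _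
      rw [(bd v hv).2]
      rfl
    have e2 : F v 2 = ⌊(N : ℝ) * (5 / 2 + 3 / 2 * co M v.1)⌋ := by
      change ⌊(N : ℝ) * D.f 1 (pt M v) 2⌋ = _
      rw [(bd v hv).2]
      rfl
    have e3 : F v 3 = 0 := by
      change ⌊(N : ℝ) * D.f 1 (pt M v) 3⌋ = _
      rw [(bd v hv).2]
      simp
    rw [e1, e2]
    exact ⟨bd0 v hv, e3, a1, by linarith, by linarith, by linarith, a3,
      fun h => by linarith [a4 h], fun h => by linarith [b3 h], fun h => by linarith [b4 h]⟩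

end Vale.Agent.P215Z.Discr
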