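import Vale.Agent.P215Z.Top.Discr.Pre

/-!
# P215: refining a coarse lattice map to a staircase map
-/

namespace Vale.Agent.P215Z

namespace Stair

def up (k : Fin 4) (x : ℤ) : ℤ := (x + 7 - 2 * (k : ℕ)) / 8
def dn (k : Fin 4) (x : ℤ) : ℤ := (x + 6 - 2 * (k : ℕ)) / 8

/-- the minimum over a product of two pairs -/
def mn (f : Gp → ℤ) (a a' b b' : ℤ) : ℤ :=
  min (min (f (a, b)) (f (a', b))) (min (f (a, b')) (f (a', b')))

/-- the refinement by the factor `8` -/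
def st (F0 : Gp → Pt) (v : Gp) : Pt :=
  fun k => mn (fun c => F0 c k) (up k v.1) (dn k v.1) (up k v.2) (dn k v.2)

/-- the coarse vertices which carry the fine vertex `v` -/
def Car (v c : Gp) : Prop :=
  (8 * c.1 - 8 < v.1 ∧ v.1 < 8 * c.1 + 8) ∧ (8 * c.2 - 8 < v.2 ∧ v.2 < 8 * c.2 + 8)

theorem up_car (k : Fin 4) (x : ℤ) : 8 * up k x - 8 < x ∧ x < 8 * up k x + 8 := by
  have := k.2
  unfold up
  omega

theorem dn_car (k : Fin 4) (x : ℤ) : 8 * dn k x - 8 < x ∧ x < 8 * dn k x + 8 := by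
  have := k.2
  unfold dn
  omega

theorem st_mem (F0 : Gp → Pt) (v : Gp) (k : Fin 4) : ∃ c, Car v c ∧ st F0 v k = F0 c k := by
  unfold st mn
  rcases min_choice (min (F0 (up k v.1, up k v.2) k) (F0 (dn k v.1, up k v.2) k))
    (min (F0 (up k v.1, dn k v.2) k) (F0 (dn k v.1, dn k v.2) k)) with h | h <;> rw [h]
  · rcases min_choice (F0 (up k v.1, up k v.2) k) (F0 (dn k v.1, up k v.2) k) with h | h
    · exact ⟨(up k v.1, up k v.2), ⟨up_car k _, up_car k _⟩, h⟩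
    · exact ⟨(dn k v.1, up k v.2), ⟨dn_car k _, up_car k _⟩, h⟩
  · rcases min_choice (F0 (up k v.1, dn k v.2) k) (F0 (dn k v.1, dn k v.2) k) with h | h
    · exact ⟨(up k v.1, dn k v.2), ⟨up_car k _, dn_car k _⟩, h⟩
    · exact ⟨(dn k v.1, dn k v.2), ⟨dn_car k _, dn_car k _⟩, h⟩

/-- the index of the coordinate which moves on the step from `x` to `x + 1` -/
def mv (x : ℤ) : Fin 4 := ⟨(x % 8 / 2).toNat, by omega⟩

theorem still {k : Fin 4} {x : ℤ} (h : k ≠ mv x) :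
    up k (x + 1) = up k x ∧ dn k (x + 1) = dn k x := by
  have h1 := k.2
  have h2 : (k : ℕ) ≠ (x % 8 / 2).toNat := fun e => h (Fin.ext e)
  unfold up dn
  omega

theorem move (x : ℤ) :
    (up (mv x) x = x / 8 ∧ dn (mv x) x = x / 8 ∧ up (mv x) (x + 1) = x / 8 + 1 ∧
      dn (mv x) (x + 1) = x / 8) ∨
    (up (mv x) x = x / 8 + 1 ∧ dn (mv x) x = x / 8 ∧ up (mv x) (x + 1) = x / 8 + 1 ∧
      dn (mv x) (x + 1) = x / 8 + 1) := by
  unfold up dn mv
  simp only
  omega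

theorem isStep_single (k : Fin 4) {d : ℤ} (h1 : -1 ≤ d) (h2 : d ≤ 1) :
    IsStep (Pi.single k d) := by
  have h : d = 0 ∨ d = 1 ∨ d = -1 := by omega
  rcases h with rfl | rfl | rfl
  · exact Or.inl (Pi.single_zero k)
  · exact Or.inr ⟨k, Or.inl rfl⟩
  · exact Or.inr ⟨k, Or.inr (Pi.single_neg k 1)⟩

theorem eq_of {p q : Pt} (k : Fin 4) (h : ∀ j, j ≠ k → p j = q j) (hk : p k = q k) : p = q := by
  funext j
  by_cases hj : j = k
  · rw [hj, hk]
  · exact h j hj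

theorem eq_add {p q : Pt} (k : Fin 4) (h : ∀ j, j ≠ k → p j = q j) :
    p = q + Pi.single k (p k - q k) :=
  eq_of k (fun j hj => by simp [hj, h j hj]) (by simp)

theorem fold_of {x y z w : Pt} (k : Fin 4) (hy : ∀ j, j ≠ k → x j = y j)
    (hz : ∀ j, j ≠ k → y j = z j) (hw : ∀ j, j ≠ k → z j = w j) (h1 : y k = z k) (h2 : z k = w k)
    (h3 : -1 ≤ x k - y k) (h4 : x k - y k ≤ 1) : Fold x y z w := by
  refine ⟨eq_of k hz h1, eq_of k hw h2, ?_⟩
  rw [sub_eq_of_eq_add' (eq_add k hy)]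
  exact isStep_single k h3 h4

/-- two different coordinates move -/
theorem shape_two {q00 q10 q01 q11 : Pt} {k l : Fin 4} (hkl : k ≠ l)
    (h0 : ∀ j, j ≠ k → q10 j = q00 j) (h1 : ∀ j, j ≠ k → q11 j = q01 j)
    (g0 : ∀ j, j ≠ l → q01 j = q00 j) (g1 : ∀ j, j ≠ l → q11 j = q10 j)
    (a : |q10 k - q00 k| ≤ 1) (b : |q01 l - q00 l| ≤ 1) : Shape q00 q10 q01 q11 := by
  rw [abs_le] at a b
  refine Or.inl ⟨Pi.single k (q10 k - q00 k), Pi.single l (q01 l - q00 l),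
    isStep_single k a.1 a.2, isStep_single l b.1 b.2, fun j => ?_, eq_add k h0, eq_add l g0, ?_⟩
  · by_cases hj : j = k
    · right
      rw [hj]
      exact Pi.single_eq_of_ne hkl _
    · exact Or.inl (Pi.single_eq_of_ne hj _)
  · rw [← eq_add k h0]
    refine eq_of l (fun j hj => by simp [hj, g1 j hj]) ?_
    rw [Pi.add_apply, Pi.single_eq_same, h0 l hkl.symm, h1 l hkl.symm]
    ring

/-- two consecutive values, not in a checkerboard pattern -/
def Pat (a b c d : ℤ) : Prop :=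
  ∃ m : ℤ, (a = m ∨ a = m + 1) ∧ (b = m ∨ b = m + 1) ∧ (c = m ∨ c = m + 1) ∧
    (d = m ∨ d = m + 1) ∧ ¬(a = d ∧ b = c ∧ a ≠ b)

theorem pat (A B C D : ℤ) (n1 : -1 ≤ A - B ∧ A - B ≤ 1) (n2 : -1 ≤ A - C ∧ A - C ≤ 1)
    (n3 : -1 ≤ A - D ∧ A - D ≤ 1) (n4 : -1 ≤ B - C ∧ B - C ≤ 1) (n5 : -1 ≤ B - D ∧ B - D ≤ 1)
    (n6 : -1 ≤ C - D ∧ C - D ≤ 1) :
    Pat (min (min A A) (min A A)) (min (min B A) (min B A)) (min (min C C) (min A A))
      (min (min D C) (min B A)) ∧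
    Pat (min (min C C) (min A A)) (min (min D C) (min B A)) (min (min C C) (min C C))
      (min (min D C) (min D C)) ∧
    Pat (min (min B A) (min B A)) (min (min B B) (min B B)) (min (min D C) (min B A))
      (min (min D D) (min B B)) ∧
    Pat (min (min D C) (min B A)) (min (min D D) (min B B)) (min (min D C) (min D C))
      (min (min D D) (min D D)) := by
  simp only [min_self]
  refine ⟨⟨min (min D C) (min B A), ?_⟩, ⟨min (min D C) (min B A), ?_⟩,
    ⟨min (min D C) (min B A), ?_⟩, ⟨min (min D C) (min B A), ?_⟩⟩ <;> omega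

/-- one coordinate moves, not in a checkerboard pattern -/
theorem shape_one {q00 q10 q01 q11 : Pt} {k : Fin 4}
    (h0 : ∀ j, j ≠ k → q10 j = q00 j) (h1 : ∀ j, j ≠ k → q11 j = q01 j)
    (g0 : ∀ j, j ≠ k → q01 j = q00 j) (hp : Pat (q00 k) (q10 k) (q01 k) (q11 k)) :
    Shape q00 q10 q01 q11 := by
  obtain ⟨m, b00, b10, b01, b11, hc⟩ := hp
  have g1 : ∀ j, j ≠ k → q11 j = q00 j := fun j hj => (h1 j hj).trans (g0 j hj)
  have h : (q01 k = q00 k ∧ q11 k = q10 k) ∨ (q10 k = q00 k ∧ q11 k = q01 k) ∨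
      (q10 k = q01 k ∧ q01 k = q11 k) ∨ (q00 k = q01 k ∧ q01 k = q11 k) ∨
      (q00 k = q10 k ∧ q10 k = q11 k) ∨ (q00 k = q10 k ∧ q10 k = q01 k) := by omega
  rcases h with h | h | h | h | h | h
  · refine Or.inl ⟨Pi.single k (q10 k - q00 k), 0, isStep_single k (by omega) (by omega),
      Or.inl rfl, fun _ => Or.inr rfl, eq_add k h0, ?_, ?_⟩
    · rw [add_zero]
      exact eq_of k g0 h.1
    · rw [add_zero, ← eq_add k h0]
      exact eq_of k (fun j hj => (g1 j hj).trans (h0 j hj).symm) h.2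
  · refine Or.inl ⟨0, Pi.single k (q01 k - q00 k), Or.inl rfl,
      isStep_single k (by omega) (by omega), fun _ => Or.inl rfl, ?_, eq_add k g0, ?_⟩
    · rw [add_zero]
      exact eq_of k h0 h.1
    · rw [add_zero, ← eq_add k g0]
      exact eq_of k h1 h.2
  · exact Or.inr (Or.inl (fold_of k (fun j hj => (h0 j hj).symm)
      (fun j hj => (h0 j hj).trans (g0 j hj).symm) (fun j hj => (h1 j hj).symm) h.1 h.2
      (by omega) (by omega)))
  · exact Or.inr (Or.inr (Or.inl (fold_of k h0 (fun j hj => (g0 j hj).symm)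
      (fun j hj => (h1 j hj).symm) h.1 h.2 (by omega) (by omega))))
  · exact Or.inr (Or.inr (Or.inr (Or.inl (fold_of k g0 (fun j hj => (h0 j hj).symm)
      (fun j hj => (h0 j hj).trans (g1 j hj).symm) h.1 h.2 (by omega) (by omega)))))
  · exact Or.inr (Or.inr (Or.inr (Or.inr (fold_of k g1 (fun j hj => (h0 j hj).symm)
      (fun j hj => (h0 j hj).trans (g0 j hj).symm) h.1 h.2 (by omega) (by omega)))))

/-- the coarse square below a fine square -/
def sqOf (v : Gp) : Gp := (v.1 / 8, v.2 / 8)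

theorem corner_of_car {v w c : Gp} (hw : Corner v w) (hc : Car w c) : Corner (sqOf v) c := by
  unfold Corner Car sqOf at *
  simp only
  omega

theorem shape_st (F0 : Gp → Pt) (v : Gp)
    (near : ∀ c c', Corner (sqOf v) c → Corner (sqOf v) c' → ∀ k, |F0 c k - F0 c' k| ≤ 1) :
    Shape (st F0 v) (st F0 (v + (1, 0))) (st F0 (v + (0, 1))) (st F0 (v + (1, 1))) := by
  obtain ⟨x, y⟩ := v
  simp only [Prod.mk_add_mk, add_zero]
  have hx : ∀ (z : ℤ) (j : Fin 4), j ≠ mv x → st F0 (x + 1, z) j = st F0 (x, z) j :=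
    fun z j hj => by simp only [st, (still hj).1, (still hj).2]
  have hy : ∀ (z : ℤ) (j : Fin 4), j ≠ mv y → st F0 (z, y + 1) j = st F0 (z, y) j :=
    fun z j hj => by simp only [st, (still hj).1, (still hj).2]
  have hn : ∀ w w', Corner (x, y) w → Corner (x, y) w' → ∀ k, |st F0 w k - st F0 w' k| ≤ 1 := by
    intro w w' hw hw' k
    obtain ⟨c, hc, e⟩ := st_mem F0 w k
    obtain ⟨c', hc', e'⟩ := st_mem F0 w' k
    rw [e, e']
    exact near c c' (corner_of_car hw hc) (corner_of_car hw' hc') k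
  by_cases hkl : mv x = mv y
  swap
  · exact shape_two hkl (hx y) (hx (y + 1)) (hy x) (hy (x + 1))
      (hn (x + 1, y) (x, y) ⟨Or.inr rfl, Or.inl rfl⟩ ⟨Or.inl rfl, Or.inl rfl⟩ _)
      (hn (x, y + 1) (x, y) ⟨Or.inl rfl, Or.inr rfl⟩ ⟨Or.inl rfl, Or.inl rfl⟩ _)
  have c00 : Corner (sqOf (x, y)) (x / 8, y / 8) := ⟨Or.inl rfl, Or.inl rfl⟩
  have c10 : Corner (sqOf (x, y)) (x / 8 + 1, y / 8) := ⟨Or.inr rfl, Or.inl rfl⟩
  have c01 : Corner (sqOf (x, y)) (x / 8, y / 8 + 1) := ⟨Or.inl rfl, Or.inr rfl⟩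
  have c11 : Corner (sqOf (x, y)) (x / 8 + 1, y / 8 + 1) := ⟨Or.inr rfl, Or.inr rfl⟩
  have n1 := abs_le.mp (near _ _ c00 c10 (mv x))
  have n2 := abs_le.mp (near _ _ c00 c01 (mv x))
  have n3 := abs_le.mp (near _ _ c00 c11 (mv x))
  have n4 := abs_le.mp (near _ _ c10 c01 (mv x))
  have n5 := abs_le.mp (near _ _ c10 c11 (mv x))
  have n6 := abs_le.mp (near _ _ c01 c11 (mv x))
  have mx := move x
  have my := move y
  rw [← hkl] at my hy
  refine shape_one (k := mv x) (hx y) (hx (y + 1)) (hy x) ?_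
  simp only [st, mn]
  rcases mx with ⟨e1, e2, e3, e4⟩ | ⟨e1, e2, e3, e4⟩ <;>
    rcases my with ⟨f1, f2, f3, f4⟩ | ⟨f1, f2, f3, f4⟩ <;>
    rw [e1, e2, e3, e4, f1, f2, f3, f4]
  · exact (pat _ _ _ _ n1 n2 n3 n4 n5 n6).1
  · exact (pat _ _ _ _ n1 n2 n3 n4 n5 n6).2.1
  · exact (pat _ _ _ _ n1 n2 n3 n4 n5 n6).2.2.1
  · exact (pat _ _ _ _ n1 n2 n3 n4 n5 n6).2.2.2

theorem isStep_perm (σ : Equiv.Perm (Fin 4)) {a : Pt} (h : IsStep a) :
    IsStep fun j => a (σ j) := by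
  have he : ∀ k, (fun j => ee k (σ j)) = ee (σ.symm k) := fun k => by
    funext j
    simp only [ee, Pi.single_apply, Equiv.eq_symm_apply]
  rcases h with rfl | ⟨k, rfl | rfl⟩
  · exact Or.inl rfl
  · exact Or.inr ⟨_, Or.inl (he k)⟩
  · exact Or.inr ⟨σ.symm k, Or.inr (by rw [← he k]; rfl)⟩

/-- a coordinate permutation followed by a translation -/
def pt (σ : Equiv.Perm (Fin 4)) (t q : Pt) : Pt := fun j => q (σ j) + t j

theorem fold_pt (σ : Equiv.Perm (Fin 4)) (t : Pt) {x y z w : Pt} (h : Fold x y z w) :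
    Fold (pt σ t x) (pt σ t y) (pt σ t z) (pt σ t w) := by
  obtain ⟨rfl, rfl, h⟩ := h
  refine ⟨rfl, rfl, ?_⟩
  have e : pt σ t x - pt σ t y = fun j => (x - y) (σ j) := by
    funext j
    simp [pt]
  rw [e]
  exact isStep_perm σ h

theorem shape_pt (σ : Equiv.Perm (Fin 4)) (t : Pt) {x y z w : Pt} (h : Shape x y z w) :
    Shape (pt σ t x) (pt σ t y) (pt σ t z) (pt σ t w) := by
  rcases h with ⟨a, b, ha, hb, hab, rfl, rfl, rfl⟩ | h | h | h | h
  · refine Or.inl ⟨fun j => a (σ j), fun j => b (σ j), isStep_perm σ ha, isStep_perm σ hb,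
      fun k => hab (σ k), ?_, ?_, ?_⟩ <;>
    · funext j
      simp only [pt, Pi.add_apply]
      ring
  · exact Or.inr (Or.inl (fold_pt σ t h))
  · exact Or.inr (Or.inr (Or.inl (fold_pt σ t h)))
  · exact Or.inr (Or.inr (Or.inr (Or.inl (fold_pt σ t h))))
  · exact Or.inr (Or.inr (Or.inr (Or.inr (fold_pt σ t h))))

/-- the coarse square of a fine vertex -/
def cs (M : ℕ) (v : Gp) : Gp := (min (v.1 / 8) (M - 1), min (v.2 / 8) (M - 1))

theorem inSq_cs {M : ℕ} (hM : 0 < M) {v : Gp} (hv : InG (8 * M) v) : InSq M (cs M v) := by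
  unfold InG at hv
  unfold InSq cs
  push_cast at hv
  simp only
  omega

theorem corner_cs {M : ℕ} {v c : Gp} (hv : InG (8 * M) v) (hc : Car v c) :
    Corner (cs M v) c := by
  unfold InG at hv
  unfold Car at hc
  unfold Corner cs
  push_cast at hv
  simp only
  omega

theorem hull_of {F0 : Gp → Pt} {s v : Gp} (h : ∀ c, Car v c → Corner s c) :
    st F0 v ∈ Hull F0 s := by
  intro j
  obtain ⟨c, hc, e⟩ := st_mem F0 v j
  exact ⟨⟨c, h c hc, e.ge⟩, c, h c hc, e.le⟩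

theorem car_sqOf (v : Gp) : Car v (sqOf v) := by
  unfold Car sqOf
  simp only
  omega

theorem inG_of_corner {M : ℕ} {v w : Gp} (hv : InSq M v) (hw : Corner v w) : InG M w := by
  unfold InSq at hv
  unfold Corner at hw
  unfold InG
  omega

theorem inSq_sqOf {M : ℕ} {v : Gp} (hv : InSq (8 * M) v) : InSq M (sqOf v) := by
  unfold InSq at hv ⊢
  unfold sqOf
  push_cast at hv
  simp only
  omega

theorem onBd_car {M : ℕ} {v c : Gp} (hv : OnBd (8 * M) v) (hc : Car v c) :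
    OnBd M c ∧ (v.1 = 0 → c.1 = 0) ∧ (v.1 = (8 * M : ℕ) → c.1 = M) ∧ (v.2 = 0 → c.2 = 0) ∧
      (v.2 = (8 * M : ℕ) → c.2 = M) := by
  unfold OnBd InG at hv ⊢
  unfold Car at hc
  push_cast at hv ⊢
  omega

end Stair

open Stair in
theorem PreData.disc (P : PreData) : Nonempty DiscData := by
  have hh : ∀ v, InG (8 * P.M) v → st P.F v ∈ Hull P.F (cs P.M v) := fun v hv =>
    hull_of fun c hc => corner_cs hv hc
  refine ⟨{
    N := P.N
    hN := P.hN
    M := 8 * P.M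
    hM := Nat.mul_pos (by norm_num) P.hM
    F := fun g v => act P.N g (st P.F v)
    reg := fun v => P.rg (cs P.M v) (st P.F v)
    equiv := fun g i v => act_mul_of _ _ _ _
    shape := fun g v hv => ?_
    inR := fun v hv => P.inR _ (inSq_cs P.hM hv) _ (hh v hv)
    sq := fun v hv => Or.inr ?_
    sep := fun v v' hv hv' h =>
      P.sep _ _ (inSq_cs P.hM hv) (inSq_cs P.hM hv') _ (hh v hv) _ (hh v' hv') h
    bd := fun v hv => ?_ }⟩
  · obtain ⟨π, t, h⟩ := act_form P.N g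
    have e : ∀ q, act P.N g q = pt π t q := fun q => funext fun j => h q j
    simp only [e]
    refine shape_pt π t (shape_st P.F v fun c c' hc hc' k => ?_)
    have h1 := P.near _ (inSq_sqOf hv) c c' hc hc' k
    have h2 := P.near _ (inSq_sqOf hv) c' c hc' hc k
    exact abs_le.mpr ⟨by omega, by omega⟩
  · obtain ⟨g, i, h⟩ := P.sq _ (inSq_sqOf hv)
    refine ⟨g, i, fun w hw => ?_⟩
    have hG := inG_of_corner hv hw
    have e : P.rg (cs P.M w) (st P.F w) = P.rg (sqOf v) (st P.F w) :=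
      P.cons _ _ (sqOf w) (inSq_cs P.hM hG) (inSq_sqOf hv) (corner_cs hG (car_sqOf w))
        (corner_of_car hw (car_sqOf w)) _ (hh w hG)
    simp only [e]
    exact h _ (hull_of fun c hc => corner_of_car hw hc)
  · simp only [act_one]
    obtain ⟨c0, h0, e0⟩ := st_mem P.F v 0
    obtain ⟨c1, h1, e1⟩ := st_mem P.F v 1
    obtain ⟨c2, h2, e2⟩ := st_mem P.F v 2
    obtain ⟨c3, h3, e3⟩ := st_mem P.F v 3
    have b0 := P.bd _ (onBd_car hv h0).1
    have b1 := P.bd _ (onBd_car hv h1).1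
    have b2 := P.bd _ (onBd_car hv h2).1
    have b3 := P.bd _ (onBd_car hv h3).1
    obtain ⟨-, -, -, a1, a2⟩ := onBd_car hv h1
    obtain ⟨-, a3, a4, -, -⟩ := onBd_car hv h2
    rw [e0, e1, e2, e3]
    exact ⟨P.bdr _ _ (inSq_cs P.hM hv.1) (corner_cs hv.1 h0) (onBd_car hv h0).1 _ (hh v hv.1),
      b0.1, b3.2.1, b1.2.2.1, b1.2.2.2.1, b2.2.2.2.2.1, b2.2.2.2.2.2.1,
      fun h => b1.2.2.2.2.2.2.1 (a1 h), fun h => b1.2.2.2.2.2.2.2.1 (a2 h),
      fun h => b2.2.2.2.2.2.2.2.2.1 (a3 h), fun h => b2.2.2.2.2.2.2.2.2.2 (a4 h)⟩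

end Vale.Agent.P215Z
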