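import Vale.Agent.P215Z.Top.Defs
import Vale.Agent.P215Z.Top.Discr.Pre

/-!
# P215: the plumbing cubes, in the lattice and in space
-/

noncomputable section

namespace Vale.Agent.P215Z.Discr

open Set

variable {N : ℕ}

theorem org_gap (l l' : Lg) : l = l' ∨ ∃ j, org l j + 4 ≤ org l' j ∨ org l' j + 4 ≤ org l j := by
  revert l l'
  decide

theorem org_box (l : Lg) : (∀ j, 0 ≤ org l j ∧ org l j + 3 ≤ boxHi j) ∧
    (∀ c ∈ caves, ∃ j, org l j + 3 ≤ c.1 j ∨ c.2 j ≤ org l j) ∧ org l 0 ≤ 9 := by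
  revert l
  decide

theorem mem_Qc {l : Lg} {q : Pt} :
    q ∈ Qc N l ↔ ∀ j, N * org l j ≤ q j ∧ q j < N * org l j + 3 * N := by
  refine forall_congr' fun j => ?_
  have h : (org l + 3) j = org l j + 3 := rfl
  rw [h, mul_add, mul_comm (N : ℤ) 3]

theorem Qc_near {l l' : Lg} {q q' : Pt} (h : q ∈ Qc N l) (h' : q' ∈ Qc N l')
    (hq : ∀ j, q j ≤ q' j + 1 ∧ q' j ≤ q j + 1) : l = l' := by
  refine (org_gap l l').resolve_right ?_
  rintro ⟨j, hj⟩
  have h1 := mem_Qc.1 h j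
  have h2 := mem_Qc.1 h' j
  have h3 := hq j
  have h4 : (0 : ℤ) < N := by linarith [h1.1, h1.2]
  rcases hj with hj | hj <;> nlinarith [mul_le_mul_of_nonneg_left hj h4.le]

theorem Qc_disj {l l' : Lg} {q : Pt} (h : q ∈ Qc N l) (h' : q ∈ Qc N l') : l = l' :=
  Qc_near h h' fun _ => ⟨by linarith, by linarith⟩

theorem Qc_sub {l : Lg} {q : Pt} (h : q ∈ Qc N l) : q ∈ Uc N := by
  have h0 : (0 : ℤ) ≤ N := Int.natCast_nonneg N
  obtain ⟨h1, h2, -⟩ := org_box l
  rw [mem_Qc] at h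
  refine ⟨fun j => ?_, fun c hc h3 => ?_⟩
  · have h3 := h j
    have h4 := mul_le_mul_of_nonneg_left (h1 j).2 h0
    have h5 := mul_nonneg h0 (h1 j).1
    refine ⟨?_, by linarith [h3.2]⟩
    rw [Pi.zero_apply, mul_zero]
    linarith [h3.1]
  · obtain ⟨j, hj⟩ := h2 c hc
    have h4 := h j
    have h5 := h3 j
    rcases hj with hj | hj <;> linarith [mul_le_mul_of_nonneg_left hj h0, h4.1, h4.2, h5.1, h5.2]

theorem thC_mem {i : Fin 3} {q : Pt} (h : q ∈ Qc N (i, true)) : thC N i q ∈ Qc N (i, false) :=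
  mem_Qc.2 fun j => by
    have h1 := mem_Qc.1 h (ppi i j)
    rw [thC, mul_sub]
    constructor <;> linarith [h1.1, h1.2]

theorem false_notMem {i : Fin 3} {q : Pt} (h : q ∈ Qc N (i, false)) (j : Fin 3) :
    q ∉ Qc N (j, true) := fun h' => by
  have h1 := Qc_disj h h'
  simp at h1

open Classical in
/-- the region of a point of the chart `g` -/
def lab (N : ℕ) (g : F3) (p : Pt) : F3 :=
  if h : ∃ i, p ∈ Qc N (i, true) then g * FreeGroup.of h.choose else g

theorem lab_of_mem {i : Fin 3} {p : Pt} (g : F3) (h : p ∈ Qc N (i, true)) :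
    lab N g p = g * FreeGroup.of i := by
  have h1 : ∃ i, p ∈ Qc N (i, true) := ⟨i, h⟩
  have h2 : h1.choose = i := (Prod.ext_iff.1 (Qc_disj h1.choose_spec h)).1
  rw [lab, dif_pos h1, h2]

theorem lab_of_not {p : Pt} (g : F3) (h : ∀ i, p ∉ Qc N (i, true)) : lab N g p = g := by
  rw [lab, dif_neg (not_exists.2 h)]

/-- a lattice point as a point of space -/
def pr (N : ℕ) (p : Pt) : R4 := fun j => (p j : ℝ) / N

/-- the lattice point below a point of space -/
def fl (N : ℕ) (y : R4) : Pt := fun j => ⌊(N : ℝ) * y j⌋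

/-- the closed cubes -/
def Qb (l : Lg) : Set R4 := {y | ∀ j, (org l j : ℝ) ≤ y j ∧ y j ≤ org l j + 3}

/-- the chart without the lower bound for the last coordinate -/
def OU : Set R4 := {y | O3 y ∧ y 3 < 3}

theorem thC_fl (i : Fin 3) (y : R4) : thC N i (fl N y) = fl N (thR i y) := funext fun j => by
  rw [thC, fl, fl, thR, mul_add, ← Int.floor_add_intCast]
  push_cast
  rfl

theorem pr_thC (hN : 0 < N) (i : Fin 3) (p : Pt) : pr N (thC N i p) = thR i (pr N p) :=
  funext fun j => by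
    have h : (N : ℝ) ≠ 0 := Nat.cast_ne_zero.2 hN.ne'
    rw [pr, thC, thR, pr]
    push_cast
    field_simp

theorem lt_pr (hN : 0 < N) {p : Pt} {j : Fin 4} {a : ℤ} : (a : ℝ) < pr N p j ↔ N * a < p j := by
  rw [pr, lt_div_iff₀ (Nat.cast_pos.2 hN), mul_comm]
  exact_mod_cast Iff.rfl

theorem pr_lt (hN : 0 < N) {p : Pt} {j : Fin 4} {a : ℤ} : pr N p j < (a : ℝ) ↔ p j < N * a := by
  rw [pr, div_lt_iff₀ (Nat.cast_pos.2 hN), mul_comm]
  exact_mod_cast Iff.rfl

theorem mem_Qc_of_pr (hN : 0 < N) {l : Lg} {p : Pt} (h : pr N p ∈ Qo l) : p ∈ Qc N l := fun j =>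
  ⟨((lt_pr hN).1 (h j).1).le, (pr_lt hN).1 (by exact_mod_cast (h j).2)⟩

theorem pr_mem_Qb (hN : 0 < N) {l : Lg} {p : Pt} (h : p ∈ Qc N l) : pr N p ∈ Qb l := fun j =>
  ⟨not_lt.1 fun h1 => ((pr_lt hN).1 h1).not_ge (h j).1,
    ((pr_lt hN).2 (h j).2).le.trans (by exact_mod_cast le_rfl)⟩

theorem mem_Uc_of_pr (hN : 0 < N) {p : Pt} (h : pr N p ∈ OU) (h0 : 0 ≤ p 3) : p ∈ Uc N := by
  refine ⟨fun j => ?_, fun c hc h1 => ?_⟩
  · by_cases hj : j = 3
    · subst hj
      exact ⟨by simpa using h0, (pr_lt hN).1 (by exact_mod_cast h.2)⟩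
    · exact ⟨((lt_pr (a := 0) hN).1 (by exact_mod_cast (h.1.1 j hj).1)).le, (pr_lt hN).1 (h.1.1 j hj).2⟩
  · obtain ⟨j, -, hj | hj⟩ := h.1.2 c hc
    · exact ((pr_lt hN).1 hj).not_ge (h1 j).1
    · exact ((lt_pr hN).1 hj).not_gt (h1 j).2

theorem dist_pr (hN : 0 < N) {p : Pt} {y : R4}
    (h : ∀ j, p j ≤ fl N y j + 1 ∧ fl N y j ≤ p j + 1) : dist (pr N p) y ≤ 2 / N := by
  have h0 : (0 : ℝ) < N := Nat.cast_pos.2 hN
  refine (dist_pi_le_iff (by positivity)).2 fun j => ?_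
  have h1 : (p j : ℝ) ≤ ⌊(N : ℝ) * y j⌋ + 1 := by exact_mod_cast (h j).1
  have h2 : (⌊(N : ℝ) * y j⌋ : ℝ) ≤ p j + 1 := by exact_mod_cast (h j).2
  have h3 := Int.floor_le ((N : ℝ) * y j)
  have h4 := Int.lt_floor_add_one ((N : ℝ) * y j)
  have h5 : pr N p j - y j = (p j - N * y j) / N := by
    rw [pr]
    field_simp
  rw [Real.dist_eq, h5, abs_div, abs_of_pos h0]
  exact div_le_div_of_nonneg_right (abs_le.2 ⟨by linarith, by linarith⟩) h0.le

theorem isOpen_Qo (l : Lg) : IsOpen (Qo l) := by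
  rw [Qo, ofPred_forall]
  exact isOpen_iInter_of_finite fun j => (isOpen_lt continuous_const (continuous_apply j)).inter
    (isOpen_lt (continuous_apply j) continuous_const)

theorem isClosed_Qb (l : Lg) : IsClosed (Qb l) := by
  rw [Qb, ofPred_forall]
  exact isClosed_iInter fun j => (isClosed_le continuous_const (continuous_apply j)).inter
    (isClosed_le (continuous_apply j) continuous_const)

theorem isOpen_OU : IsOpen OU := by
  refine IsOpen.inter (IsOpen.inter ?_ ?_) (isOpen_lt (continuous_apply 3) continuous_const)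
  · change IsOpen {y : R4 | ∀ j : Fin 4, j ≠ 3 → 0 < y j ∧ y j < (boxHi j : ℝ)}
    simp only [ofPred_forall]
    exact isOpen_iInter_of_finite fun j => isOpen_iInter_of_finite fun _ =>
      (isOpen_lt continuous_const (continuous_apply j)).inter
        (isOpen_lt (continuous_apply j) continuous_const)
  · change IsOpen {y : R4 | ∀ c ∈ caves,
      ∃ j : Fin 4, j ≠ 3 ∧ (y j < (c.1 j : ℝ) ∨ (c.2 j : ℝ) < y j)}
    simp only [ofPred_forall, ofPred_exists]
    exact (List.finite_toSet caves).isOpen_biInter fun c _ => isOpen_iUnion fun j =>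
      isOpen_const.inter ((isOpen_lt (continuous_apply j) continuous_const).union
        (isOpen_lt continuous_const (continuous_apply j)))

theorem continuous_thR (i : Fin 3) : Continuous (thR i) :=
  continuous_pi fun _ => (continuous_apply _).add continuous_const

theorem thR_mem_Qb {i : Fin 3} {y : R4} (h : y ∈ Qb (i, true)) : thR i y ∈ Qb (i, false) :=
  fun j => by
    have h1 := h (ppi i j)
    rw [thR]
    push_cast
    constructor <;> linarith [h1.1, h1.2]

theorem thR_mem_Qo {i : Fin 3} {y : R4} (h : y ∈ Qo (i, true)) : thR i y ∈ Qo (i, false) :=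
  fun j => by
    have h1 := h (ppi i j)
    rw [thR]
    push_cast
    constructor <;> linarith [h1.1, h1.2]

theorem kap_cave (l : Lg) : (∃ c ∈ caves, c.2 (kap l.1) = org l (kap l.1) ∧
      c.1 (kap l.1) ≤ org l (kap l.1) ∧
      ∀ j, j ≠ kap l.1 → c.1 j ≤ org l j ∧ org l j + 3 ≤ c.2 j) ∧
    (∃ c ∈ caves, c.1 (kap l.1) = org l (kap l.1) + 3 ∧ org l (kap l.1) + 3 ≤ c.2 (kap l.1) ∧
      ∀ j, j ≠ kap l.1 → c.1 j ≤ org l j ∧ org l j + 3 ≤ c.2 j) ∧ org l 3 = 0 := by
  revert l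
  decide

/-- in a closed cube, the points of the chart are not on the sides in the fibre directions -/
theorem fibre {l : Lg} {y : R4} (h : y ∈ Qb l) (hO : y ∈ OO') (hb : y 3 = 0 → 14 < y 0)
    {j : Fin 4} (hj : j = kap l.1 ∨ j = 3) : (org l j : ℝ) < y j ∧ y j < org l j + 3 := by
  obtain ⟨⟨c, hc, c1, c2, c3⟩, ⟨d, hd, d1, d2, d3⟩, h3⟩ := kap_cave l
  rcases hj with rfl | rfl
  · refine ⟨(h _).1.lt_of_ne fun e => ?_, (h _).2.lt_of_ne fun e => ?_⟩
    · obtain ⟨k, -, hk⟩ := hO.1.2 c hc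
      by_cases e' : k = kap l.1
      · subst e'
        have c1' : (c.2 (kap l.1) : ℝ) = org l (kap l.1) := by exact_mod_cast c1
        have c2' : (c.1 (kap l.1) : ℝ) ≤ org l (kap l.1) := by exact_mod_cast c2
        rcases hk with hk | hk <;> linarith
      · have c4 : (c.1 k : ℝ) ≤ org l k := by exact_mod_cast (c3 k e').1
        have c5 : (org l k : ℝ) + 3 ≤ c.2 k := by exact_mod_cast (c3 k e').2
        rcases hk with hk | hk <;> linarith [(h k).1, (h k).2]
    · obtain ⟨k, -, hk⟩ := hO.1.2 d hd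
      by_cases e' : k = kap l.1
      · subst e'
        have c1' : (d.1 (kap l.1) : ℝ) = org l (kap l.1) + 3 := by exact_mod_cast d1
        have c2' : (org l (kap l.1) : ℝ) + 3 ≤ d.2 (kap l.1) := by exact_mod_cast d2
        rcases hk with hk | hk <;> linarith
      · have c4 : (d.1 k : ℝ) ≤ org l k := by exact_mod_cast (d3 k e').1
        have c5 : (org l k : ℝ) + 3 ≤ d.2 k := by exact_mod_cast (d3 k e').2
        rcases hk with hk | hk <;> linarith [(h k).1, (h k).2]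
  · rw [h3, Int.cast_zero, zero_add]
    refine ⟨hO.2.1.lt_of_ne fun e => ?_, hO.2.2⟩
    have h4 : (org l 0 : ℝ) ≤ 9 := by exact_mod_cast (org_box l).2.2
    linarith [hb e.symm, (h 0).2]

theorem kap_ppi (i : Fin 3) (j : Fin 4) :
    (j = kap i ∨ j = 3) ∨ ∃ k, (k = kap i ∨ k = 3) ∧ ppi i k = j := by
  revert i j
  decide

/-- the glued space is separated -/
theorem haus {i : Fin 3} {y : R4} (h : y ∈ Qb (i, true)) (hO : y ∈ OO')
    (hb : y 3 = 0 → 14 < y 0) (hO' : thR i y ∈ OO') (hb' : thR i y 3 = 0 → 14 < thR i y 0) :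
    y ∈ Qo (i, true) := fun j => by
  rcases kap_ppi i j with hj | ⟨k, hk, rfl⟩
  · exact fibre h hO hb hj
  · have h1 := fibre (thR_mem_Qb h) hO' hb' hk
    rw [thR] at h1
    push_cast at h1
    constructor <;> linarith [h1.1, h1.2]

end Vale.Agent.P215Z.Discr
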