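import Vale.Agent.P215Z.Top.Discr.Cube

/-!
# P215: a finite cover of the disc with uniform margins
-/

noncomputable section

namespace Vale.Agent.P215Z.Discr

open Set Filter Topology Metric P215.H788

theorem margin {X Y : Type} [TopologicalSpace X] [PseudoMetricSpace Y] {K : Set X}
    (hK : IsCompact K) {f : X → Y} (hf : Continuous f) {U : Set Y} (hU : IsOpen U)
    (h : ∀ x ∈ K, f x ∈ U) : ∀ᶠ δ in 𝓝 (0 : ℝ), ∀ x ∈ K, ∀ y, dist y (f x) ≤ δ → y ∈ U := by
  obtain ⟨ε, h0, h1⟩ := (hK.image hf).exists_cthickening_subset_open hU (image_subset_iff.2 h)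
  filter_upwards [Iio_mem_nhds h0] with δ hδ x hx y hy using
    h1 (mem_cthickening_of_dist_le y (f x) ε _ (mem_image_of_mem f hx) (hy.trans hδ.le))

/-- the relation between two charts at a common point -/
def Two (g g' : F3) : Set (R4 × R4) := {z | g = g' ∨
  (∃ i, g' = g * FreeGroup.of i ∧ z.1 ∈ Qo (i, true)) ∨
    ∃ i, g = g' * FreeGroup.of i ∧ z.2 ∈ Qo (i, true)}

theorem isOpen_Two (g g' : F3) : IsOpen (Two g g') := by
  refine isOpen_const.union (IsOpen.union ?_ ?_)
  · change IsOpen {z : R4 × R4 | ∃ i, g' = g * FreeGroup.of i ∧ z.1 ∈ Qo (i, true)}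
    rw [ofPred_exists]
    exact isOpen_iUnion fun i => isOpen_const.inter ((isOpen_Qo _).preimage continuous_fst)
  · change IsOpen {z : R4 × R4 | ∃ i, g = g' * FreeGroup.of i ∧ z.2 ∈ Qo (i, true)}
    rw [ofPred_exists]
    exact isOpen_iUnion fun i => isOpen_const.inter ((isOpen_Qo _).preimage continuous_snd)

/-- the separation of two charts -/
def Far (g g' : F3) : Set (R4 × R4) := {z | (g = g' ∨ z.1 ≠ z.2) ∧
  ∀ i, g * FreeGroup.of i = g' ∨ z.1 ∉ Qb (i, true) ∨ thR i z.1 ≠ z.2}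

theorem isOpen_Far (g g' : F3) : IsOpen (Far g g') := by
  refine (isOpen_const.union (isOpen_ne_fun continuous_fst continuous_snd)).inter ?_
  change IsOpen {z : R4 × R4 | ∀ i, g * FreeGroup.of i = g' ∨ z.1 ∉ Qb (i, true) ∨
    thR i z.1 ≠ z.2}
  rw [ofPred_forall]
  exact isOpen_iInter_of_finite fun i => isOpen_const.union
    (((isClosed_Qb _).isOpen_compl.preimage continuous_fst).union
      (isOpen_ne_fun ((continuous_thR i).comp continuous_fst) continuous_snd))

theorem far (D : Lifted) {g g' : F3} {x y : Disc} (hx : x ∈ D.V g) (hy : y ∈ D.V g') :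
    (D.f g x, D.f g' y) ∈ Far g g' := by
  refine ⟨or_iff_not_imp_right.2 fun h => D.sep g g' x y hx hy (not_not.1 h), fun i => ?_⟩
  by_contra h
  simp only [not_or, not_not] at h
  obtain ⟨h1, h2, h3⟩ := h
  have h4 : D.f g x ∈ Qo (i, true) := haus h2 (D.mem g x hx) (D.bot g x hx)
    (by rw [h3]; exact D.mem g' y hy) (by rw [h3]; exact D.bot g' y hy)
  exact h1 (D.sep _ _ x y (D.toB g i x hx h4) hy (by rw [D.equiv, h3]))

/-- a choice of a chart at each point, with uniform margins -/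
theorem exists_margin (D : Lifted) : ∃ (c : Disc → F3) (r δ : ℝ), 0 < r ∧ 0 < δ ∧
    (∀ x y, dist y x ≤ r → y ∈ D.V (c x)) ∧
    (∀ x y, dist y x ≤ r → ∀ u, dist u (D.f (c x) y) ≤ δ → u ∈ OU) ∧
    (∀ x x' y, dist y x ≤ r → dist y x' ≤ r → ∀ u u', dist u (D.f (c x) y) ≤ δ →
      dist u' (D.f (c x') y) ≤ δ → (u, u') ∈ Two (c x) (c x')) ∧
    ∀ x x' y y', dist y x ≤ r → dist y' x' ≤ r → ∀ u u', dist u (D.f (c x) y) ≤ δ →
      dist u' (D.f (c x') y') ≤ δ → (u, u') ∈ Far (c x) (c x') := by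
  obtain ⟨ρ, hρ, h1⟩ := lebesgue_number_lemma_of_metric (isCompact_univ (X := Disc)) D.isOpen
    fun x _ => mem_iUnion.2 (D.cover x)
  choose g hg using fun x => h1 x trivial
  obtain ⟨t, -, ht, h2⟩ := finite_cover_balls_of_compact (isCompact_univ (X := Disc))
    (show 0 < ρ / 4 by positivity)
  choose a ha h3 using fun x => mem_iUnion₂.1 (h2 (mem_univ x))
  have hK : ∀ b : Disc, IsCompact (closedBall b (ρ / 2)) := fun b => isClosed_closedBall.isCompact
  have hV : ∀ b : Disc, ∀ y ∈ closedBall b (ρ / 2), y ∈ D.V (g b) := fun b y hy =>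
    hg b (closedBall_subset_ball (by linarith) hy)
  have h4 : ∀ x y, dist y x ≤ ρ / 4 → y ∈ closedBall (a x) (ρ / 2) := fun x y h => by
    have h5 : dist x (a x) < ρ / 4 := h3 x
    rw [mem_closedBall]
    linarith [dist_triangle y x (a x)]
  have e1 := (eventually_all_finite ht).2 fun b _ => margin (hK b) (D.cont (g b)) isOpen_OU
    fun y hy => ⟨(D.mem _ y (hV b y hy)).1, (D.mem _ y (hV b y hy)).2.2⟩
  have e2 := (eventually_all_finite ht).2 fun b _ => (eventually_all_finite ht).2 fun b' _ =>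
    margin ((hK b).inter (hK b')) ((D.cont (g b)).prodMk (D.cont (g b'))) (isOpen_Two (g b) (g b'))
      fun y hy => (D.two _ _ y (hV b y hy.1) (hV b' y hy.2))
  have e3 := (eventually_all_finite ht).2 fun b _ => (eventually_all_finite ht).2 fun b' _ =>
    margin ((hK b).prod (hK b')) ((D.cont (g b)).prodMap (D.cont (g b'))) (isOpen_Far (g b) (g b'))
      fun y hy => far D (hV b _ hy.1) (hV b' _ hy.2)
  obtain ⟨δ, ⟨k1, k2, k3⟩, k4⟩ :=
    (((e1.and (e2.and e3)).filter_mono nhdsWithin_le_nhds).and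
      (self_mem_nhdsWithin (s := Ioi 0))).exists
  refine ⟨fun x => g (a x), ρ / 4, δ, by positivity, k4, fun x y h => hV _ y (h4 x y h),
    fun x y h => k1 _ (ha x) y (h4 x y h), fun x x' y h h' u u' hu hu' => ?_,
    fun x x' y y' h h' u u' hu hu' => ?_⟩
  · exact k2 _ (ha x) _ (ha x') y ⟨h4 x y h, h4 x' y h'⟩ (u, u') (max_le hu hu')
  · exact k3 _ (ha x) _ (ha x') (y, y') ⟨h4 x y h, h4 x' y' h'⟩ (u, u') (max_le hu hu')

theorem act_fl (D : Lifted) (N : ℕ) (x : Disc) (h : F3) :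
    ∀ g, act N h (fl N (D.f g x)) = fl N (D.f (g * h) x) := by
  induction h using FreeGroup.induction_on with
  | C1 => exact fun g => by rw [act_one, mul_one]
  | of i => exact fun g => by rw [act_of, thC_fl, D.equiv]
  | inv_of i ih =>
    intro g
    apply (act N (FreeGroup.of i)).injective
    rw [ih, ← act_mul, inv_mul_cancel, act_one, inv_mul_cancel_right]
  | mul h h' ih ih' => exact fun g => by rw [act_mul, ih, ih', mul_assoc]

end Vale.Agent.P215Z.Discr
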